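import Vale.Agent.P281.H949.GM.F
import Vale.Agent.P281.H787.MA

/-!
# P281, theorem SB, block MZ

The metrics defined by the moving part of a pluricanonical linear system.
-/

open scoped Manifold ContDiff Topology ComplexOrder
open Set Filter Vale.Agent.P281.J Vale.Agent.P272.K
open Vale.Agent.P299
open Vale.Agent.P272.K.INT (IsClosedForm)
open Vale.Agent.P272.K.AMP (hess)

noncomputable section

namespace Vale.Agent.P281.H455.SB

open Vale.Agent.P281.H949.SA Vale.Agent.P281.H949.GM Vale.Agent.P281.H713 Vale.Agent.P281.H713.SA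
  Vale.Agent.P281.H713.SB Vale.Agent.P281.H167.GM Vale.Agent.P299.H223

variable {n : ℕ} {X : Type} [TopologicalSpace X] [ChartedSpace (Cm n) X]

lemma at_chart (x : X) : At (chartAt (Cm n) x : Chart n X) x :=
  ⟨chart_mem_atlas _ _, mem_chart_source _ _⟩

/-- quotients of holomorphic functions -/
lemma holAt_div {f g : X → ℂ} {x : X} (hf : HolAt (Cm n) f x) (hg : HolAt (Cm n) g x)
    (h0 : g x ≠ 0) : HolAt (Cm n) (fun z => f z / g z) x := by
  have h1 : ContMDiffAt 𝓘(ℂ, Cm n) 𝓘(ℂ, ℂ) ω (fun z => (g z)⁻¹) x :=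
    (contDiffAt_inv ℂ h0).contMDiffAt.comp x hg
  have h2 : ContMDiffAt 𝓘(ℂ, Cm n) 𝓘(ℂ, ℂ) ω (fun z => f z * (g z)⁻¹) x := hf.mul h1
  show ContMDiffAt 𝓘(ℂ, Cm n) 𝓘(ℂ, ℂ) ω (fun z => f z / g z) x
  simp only [div_eq_mul_inv]
  exact h2

variable [IsManifold 𝓘(ℂ, Cm n) ω X]

/-- the sections `s b` generate locally principal ideals -/
lemma isMoving_of {m k N : ℕ} (hm : 0 < m) {s : Fin N → X → ℂ} {S : X → ℂ}
    (h : IsMovFix (Cm n) m k s S) (hS : ∃ x, S x ≠ 0) : IsMoving n m s where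
  pos := hm
  sec b x := by
    obtain ⟨g, c, a, hg, -, ha, -, hev⟩ := h x
    refine ⟨∅, fun _ _ => 1, fun z => g z * a b z, fun i hi => absurd rfl hi, by simp,
      hg.mul (ha b), ?_⟩
    filter_upwards [hev] with z hz _
    rw [Finset.prod_empty, mul_one]
    exact hz.1 b
  princ x := by
    obtain ⟨g, c, a, hg, -, ha, ⟨b₀, hb₀⟩, hev⟩ := h x
    refine ⟨b₀, fun b => ⟨fun z => a b z / a b₀ z, holAt_div (ha b) (ha b₀) hb₀, ?_⟩⟩
    filter_upwards [hev, (ha b₀).continuousAt.eventually_ne hb₀] with z hz hz0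
    rw [hz.1 b, hz.1 b₀]
    field_simp
  ne := by
    obtain ⟨x, hx⟩ := hS
    obtain ⟨g, c, a, -, -, -, ⟨b₀, hb₀⟩, hev⟩ := h x
    have h1 := hev.self_of_nhds
    refine ⟨b₀, x, ?_⟩
    rw [h1.1 b₀]
    have hg : g x ≠ 0 := by
      intro h0
      apply hx
      rw [h1.2, h0, zero_pow (Nat.succ_ne_zero k), zero_mul, zero_mul]
    exact mul_ne_zero (mul_ne_zero hg hb₀) (pow_ne_zero _ (dj_ne_zero (at_chart x)))

/-- **Block MZ**. -/
theorem metricPartZ : MetricPartZ := by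
  intro n X _ _ _ _ φ hφ m k N hm s S hsS hS
  have hs : IsMoving n m s := isMoving_of hm hsS hS
  choose bb H hH using fun x => exists_gen hs x
  refine ⟨theta m H, theta_closed hs hH, fun e x h => theta_psd hs hH h,
    fun e x h hQ => ?_, fun e x h b₀ hb₀ v => ?_⟩
  · rw [← H787.rho_eq_Qn] at hQ
    have hne : ∃ b, s b x ≠ 0 := by
      by_contra hcon
      push Not at hcon
      rw [(rho_zero_iff x).2 hcon] at hQ
      exact lt_irrefl _ hQ
    rw [theta_coef hs hH h hne, ← H787.rho_eq_Qn]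
    have hc := coef_holo hs.sec h
    have hc0 : coef m s e (e x) ≠ 0 := by
      obtain ⟨b, hb⟩ := hne
      exact fun h0 => hb ((coef_eq_zero h).1 (congrFun h0 b))
    have hmC : ((m : ℝ) : ℂ) ≠ 0 := by exact_mod_cast hm.ne'
    have h1 : (fun z => Real.log (rho φ m s (e.symm z))) =ᶠ[𝓝 (e x)]
        fun z => Real.log (nsq (coef m s e z)) + (-(m : ℝ)) * φ e z := by
      filter_upwards [rho_ev (S := s) (m := m) hφ h, hc.continuousAt.eventually_ne hc0] with z hz hz0
      rw [hz, Real.log_mul (nsq_pos hz0).ne' (Real.exp_pos _).ne', Real.log_exp]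
      ring
    have hφ2 : ContDiffAt ℝ 2 (φ e) (e x) :=
      (hφ.smooth e x h).of_le (by exact WithTop.coe_le_coe.2 le_top)
    have hl2 : ContDiffAt ℝ 2 (fun z => Real.log (nsq (coef m s e z))) (e x) :=
      (smooth_log_nsq hc hc0).of_le (by exact WithTop.coe_le_coe.2 le_top)
    have h2 : hess (fun y => Real.log (rho φ m s y)) e (e x) =
        fsM (coef m s e) (e x) + (((-(m : ℝ) : ℝ)) : ℂ) • cHess (φ e) (e x) := by
      unfold hess
      rw [cHess_congr h1, cHess_add hl2 (contDiffAt_const.mul hφ2), cHess_const_mul _ hφ2]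
      rfl
    rw [h2, smul_add, smul_smul, ← Complex.ofReal_mul]
    have h3 : (m : ℝ)⁻¹ * -(m : ℝ) = -1 := by
      have : (m : ℝ) ≠ 0 := by exact_mod_cast hm.ne'
      field_simp
    rw [h3, Complex.ofReal_neg, Complex.ofReal_one, neg_one_smul]
    abel
  · have hc := coef_holo hs.sec h
    have hb0 : coef m s e (e x) b₀ ≠ 0 := fun h0 => hb₀ ((coef_eq_zero h).1 h0)
    have hc0 : coef m s e (e x) ≠ 0 := fun h0 => hb0 (congrFun h0 b₀)
    rw [theta_coef hs hH h ⟨b₀, hb₀⟩]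
    have hm' : ((((m : ℝ)⁻¹ : ℝ) : ℂ)) ≠ 0 := by
      have : (m : ℝ) ≠ 0 := by exact_mod_cast hs.pos.ne'
      exact_mod_cast inv_ne_zero this
    have h1 : (∀ j, ∑ i, v i * ((((m : ℝ)⁻¹ : ℝ) : ℂ) • fsM (coef m s e) (e x)) i j = 0) ↔
        ∀ j, ∑ i, v i * fsM (coef m s e) (e x) i j = 0 := by
      refine forall_congr' fun j => ?_
      have h2 : ∑ i, v i * ((((m : ℝ)⁻¹ : ℝ) : ℂ) • fsM (coef m s e) (e x)) i j =
          (((m : ℝ)⁻¹ : ℝ) : ℂ) * ∑ i, v i * fsM (coef m s e) (e x) i j := by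
        rw [Finset.mul_sum]
        refine Finset.sum_congr rfl fun i _ => ?_
        rw [Matrix.smul_apply, smul_eq_mul]
        ring
      rw [h2, mul_eq_zero, or_iff_right hm']
    rw [h1, fsM_ker hc hc0, fderiv_quot hc hb0]
    refine forall_congr' fun b => ?_
    have h3 : (fun y => coef m s e y b / coef m s e y b₀) =ᶠ[𝓝 (e x)]
        fun z => s b (e.symm z) / s b₀ (e.symm z) := by
      filter_upwards [h.nhds_at h] with z hz
      simp only [coef]
      exact div_div_div_cancel_right₀ (pow_ne_zero _ (dj_ne_zero hz.2.1)) _ _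
    rw [h3.fderiv_eq]

end Vale.Agent.P281.H455.SB
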